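/-
Row 210 (S0432), layer GM (architect helper666), block F = excess mass functional (sub-architect helper988).
File 1: explicit Lebesgue decompositions, the functional `gm1_F` (density form), the volume `gm1_V`.   Pure measure theory.
Plan of the block: header of `GM/Exc/Abs.lean`.
-/
import Mathlib

set_option autoImplicit false

open Set Filter MeasureTheory
open scoped ENNReal NNReal Topology

namespace Claimed.Agent.R210.GM.Exc.Dec

noncomputable section

variable {X : Type*} [MeasurableSpace X] {m ν η σ η' : Measure X} {g g' f : X → ℝ≥0∞} {C : ℝ≥0}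

/-- excess mass functional `F_C(ν) = ∫ (ρ - C)⁺ dm + ν^s(X)` (truncated subtraction of `ℝ≥0∞`) -/
def gm1_F (m : Measure X) (C : ℝ≥0) (ν : Measure X) : ℝ≥0∞ :=
  ∫⁻ x, (ν.rnDeriv m x - C) ∂m + ν.singularPart m univ

/-- the volume of `{ρ > C}` -/
def gm1_V (m : Measure X) (C : ℝ≥0) (ν : Measure X) : ℝ≥0∞ := m {x | (C : ℝ≥0∞) < ν.rnDeriv m x}

/-- `ν = η + g m` is a Lebesgue decomposition of `ν` w.r.t. `m` -/
structure gm1_Dec (m ν η : Measure X) (g : X → ℝ≥0∞) : Prop where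
  meas : Measurable g
  sing : η ⟂ₘ m
  add : ν = η + m.withDensity g

/-- `Measure.haveLebesgueDecomposition_add`, `Measure.mutuallySingular_singularPart`, `Measure.measurable_rnDeriv` -/
theorem gm1_dec_self [SigmaFinite m] [IsFiniteMeasure ν] : gm1_Dec m ν (ν.singularPart m) (ν.rnDeriv m) :=
  ⟨Measure.measurable_rnDeriv ν m, Measure.mutuallySingular_singularPart ν m,
    Measure.haveLebesgueDecomposition_add ν m⟩

/-- `Measure.eq_rnDeriv` -/
theorem gm1_dec_rn [SigmaFinite m] (h : gm1_Dec m ν η g) : g =ᵐ[m] ν.rnDeriv m :=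
  Measure.eq_rnDeriv h.meas h.sing h.add

/-- `Measure.eq_singularPart` -/
theorem gm1_dec_sing (h : gm1_Dec m ν η g) : η = ν.singularPart m :=
  Measure.eq_singularPart h.meas h.sing h.add

theorem gm1_F_of_dec [SigmaFinite m] (h : gm1_Dec m ν η g) :
    gm1_F m C ν = ∫⁻ x, (g x - C) ∂m + η univ := by
  rw [gm1_F, ← gm1_dec_sing h]
  congr 1
  refine lintegral_congr_ae ?_
  filter_upwards [gm1_dec_rn h] with x hx
  rw [hx]

theorem gm1_V_of_dec [SigmaFinite m] (h : gm1_Dec m ν η g) : gm1_V m C ν = m {x | (C : ℝ≥0∞) < g x} := by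
  rw [gm1_V]
  refine measure_congr ?_
  filter_upwards [gm1_dec_rn h] with x hx
  show ((C : ℝ≥0∞) < ν.rnDeriv m x) = ((C : ℝ≥0∞) < g x)
  rw [hx]

theorem gm1_mass (h : gm1_Dec m ν η g) : ν univ = η univ + ∫⁻ x, g x ∂m := by
  conv_lhs => rw [h.add]
  rw [Measure.add_apply, withDensity_apply _ MeasurableSet.univ, Measure.restrict_univ]

/-- `∫ φ dν = ∫ φ dη + ∫ φ g dm` (`lintegral_add_measure`, `lintegral_withDensity_eq_lintegral_mul`) -/
theorem gm1_lintegral (h : gm1_Dec m ν η g) {φ : X → ℝ≥0∞} (hφ : Measurable φ) :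
    ∫⁻ x, φ x ∂ν = ∫⁻ x, φ x ∂η + ∫⁻ x, φ x * g x ∂m := by
  conv_lhs => rw [h.add]
  rw [lintegral_add_measure, lintegral_withDensity_eq_lintegral_mul _ h.meas hφ]
  congr 1
  refine lintegral_congr fun x => ?_
  simp only [Pi.mul_apply]
  exact mul_comm _ _

theorem gm1_F_le_mass [SigmaFinite m] [IsFiniteMeasure ν] : gm1_F m C ν ≤ ν univ := by
  rw [gm1_mass (gm1_dec_self (m := m) (ν := ν)), gm1_F, add_comm]
  exact add_le_add le_rfl (lintegral_mono fun x => tsub_le_self)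

/-- the density is a.e. finite -/
theorem gm1_dec_lt_top [IsFiniteMeasure ν] (h : gm1_Dec m ν η g) : ∀ᵐ x ∂m, g x < ∞ := by
  refine ae_lt_top h.meas (ne_of_lt ?_)
  refine lt_of_le_of_lt ?_ (measure_lt_top ν univ)
  rw [gm1_mass h]
  exact le_add_self

/-- Markov: `C m{g > C} ≤ ∫ g ≤ ν(X)` -/
theorem gm1_vol_lt_top [IsFiniteMeasure ν] (h : gm1_Dec m ν η g) (hC : 0 < C) :
    m {x | (C : ℝ≥0∞) < g x} < ∞ := by
  have hfin : ∫⁻ x, g x ∂m ≠ ∞ := by
    refine ne_of_lt (lt_of_le_of_lt ?_ (measure_lt_top ν univ))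
    rw [gm1_mass h]
    exact le_add_self
  have hC0 : (C : ℝ≥0∞) ≠ 0 := by
    simpa using hC.ne'
  have h1 : m {x | (C : ℝ≥0∞) ≤ g x} < ∞ :=
    lt_of_le_of_lt (meas_ge_le_lintegral_div h.meas.aemeasurable hC0 ENNReal.coe_ne_top)
      (ENNReal.div_lt_top hfin hC0)
  have hsub : {x | (C : ℝ≥0∞) < g x} ⊆ {x | (C : ℝ≥0∞) ≤ g x} := by
    intro x hx
    exact le_of_lt (show (C : ℝ≥0∞) < g x from hx)
  exact lt_of_le_of_lt (measure_mono hsub) h1

/-- `F ν + C m{g > C} = η(X) + ∫_{g > C} g dm` -/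
theorem gm1_F_add_vol [SigmaFinite m] (h : gm1_Dec m ν η g) :
    gm1_F m C ν + C * m {x | (C : ℝ≥0∞) < g x} = η univ + ∫⁻ x in {x | (C : ℝ≥0∞) < g x}, g x ∂m := by
  have hS : MeasurableSet {x | (C : ℝ≥0∞) < g x} := measurableSet_lt measurable_const h.meas
  have h1 : ∫⁻ x, (g x - C) ∂m = ∫⁻ x in {x | (C : ℝ≥0∞) < g x}, (g x - C) ∂m := by
    rw [← lintegral_indicator hS]
    refine lintegral_congr fun x => ?_
    by_cases hx : (C : ℝ≥0∞) < g x
    · rw [indicator_of_mem (show x ∈ {x | (C : ℝ≥0∞) < g x} from hx)]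
    · rw [indicator_of_notMem (show x ∉ {x | (C : ℝ≥0∞) < g x} from hx)]
      exact tsub_eq_zero_of_le (not_lt.1 hx)
  have h2 : (C : ℝ≥0∞) * m {x | (C : ℝ≥0∞) < g x} = ∫⁻ _x in {x | (C : ℝ≥0∞) < g x}, (C : ℝ≥0∞) ∂m := by
    rw [setLIntegral_const]
  have h3 : ∫⁻ x in {x | (C : ℝ≥0∞) < g x}, (g x - C) ∂m + ∫⁻ _x in {x | (C : ℝ≥0∞) < g x}, (C : ℝ≥0∞) ∂m
      = ∫⁻ x in {x | (C : ℝ≥0∞) < g x}, g x ∂m := by
    rw [← lintegral_add_right _ measurable_const]
    refine setLIntegral_congr_fun hS fun x hx => ?_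
    exact tsub_add_cancel_of_le (le_of_lt hx)
  rw [gm1_F_of_dec h, h1, h2, add_right_comm, h3, add_comm]

/-- countable combinations (`withDensity_tsum`, `withDensity_smul`, `Measure.MutuallySingular.sum_left`, `Measure.sum_add_sum`) -/
theorem gm1_dec_sum {νs ηs : ℕ → Measure X} {gs : ℕ → X → ℝ≥0∞} (h : ∀ i, gm1_Dec m (νs i) (ηs i) (gs i))
    (w : ℕ → ℝ≥0∞) :
    gm1_Dec m (Measure.sum fun i => w i • νs i) (Measure.sum fun i => w i • ηs i)
      (fun x => ∑' i, w i * gs i x) := by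
  refine ⟨Measurable.tsum fun i => (h i).meas.const_mul (w i),
    Measure.MutuallySingular.sum_left.2 fun i => (h i).sing.smul (w i), ?_⟩
  have e1 : (fun x => ∑' i, w i * gs i x) = ∑' i, (w i • gs i) := by
    funext x
    rw [tsum_apply (Pi.summable.2 fun _ => ENNReal.summable)]
    rfl
  rw [e1, withDensity_tsum fun i => (h i).meas.const_smul (w i), Measure.sum_add_sum]
  congr 1
  funext i
  rw [withDensity_smul _ (h i).meas, ← smul_add, ← (h i).add]

/-- surgery (`withDensity_add_measure`, `withDensity_mul`, `withDensity_absolutelyContinuous`, `withDensity_smul`) -/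
theorem gm1_dec_surgery (h : gm1_Dec m ν η g) (h' : gm1_Dec m σ η' g') (hf : Measurable f) (a : ℝ≥0∞) :
    gm1_Dec m (ν.withDensity (fun x => 1 - f x) + a • σ) (η.withDensity (fun x => 1 - f x) + a • η')
      (fun x => (1 - f x) * g x + a * g' x) := by
  have hk : Measurable fun x => 1 - f x := measurable_const.sub hf
  refine ⟨(hk.mul h.meas).add (h'.meas.const_mul a),
    Measure.MutuallySingular.add_left
      (h.sing.mono_ac (withDensity_absolutelyContinuous _ _) Measure.AbsolutelyContinuous.rfl)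
      (h'.sing.smul a), ?_⟩
  have e1 : (fun x => (1 - f x) * g x + a * g' x) = (g * fun x => 1 - f x) + a • g' := by
    funext x
    simp only [Pi.add_apply, Pi.mul_apply, Pi.smul_apply, smul_eq_mul]
    rw [mul_comm]
  rw [e1, withDensity_add_left (h.meas.mul hk), withDensity_mul _ h.meas hk, withDensity_smul _ h'.meas]
  conv_lhs => rw [h.add, h'.add, withDensity_add_measure, smul_add]
  abel

theorem gm1_le_of_F_eq_zero [SigmaFinite m] [IsFiniteMeasure ν] (h : gm1_F m C ν = 0) :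
    ν ≤ (C : ℝ≥0∞) • m := by
  rw [gm1_F, add_eq_zero] at h
  obtain ⟨h1, h2⟩ := h
  have hs : ν.singularPart m = 0 := Measure.measure_univ_eq_zero.1 h2
  have hle : ∀ᵐ x ∂m, ν.rnDeriv m x ≤ (C : ℝ≥0∞) := by
    have hm : Measurable fun x => ν.rnDeriv m x - (C : ℝ≥0∞) :=
      (Measure.measurable_rnDeriv ν m).sub measurable_const
    have := (lintegral_eq_zero_iff hm).1 h1
    filter_upwards [this] with x hx
    exact tsub_eq_zero_iff_le.1 hx
  have hadd := Measure.haveLebesgueDecomposition_add ν m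
  rw [hs, zero_add] at hadd
  calc ν = m.withDensity (ν.rnDeriv m) := hadd
    _ ≤ m.withDensity (fun _ => (C : ℝ≥0∞)) := withDensity_mono hle
    _ = (C : ℝ≥0∞) • m := withDensity_const _

end

end Claimed.Agent.R210.GM.Exc.Dec
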