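/-
Row 210 (S0432), layer GM (architect helper666), block F = excess mass functional (sub-architect helper988).
File 2: `gm1_F` equals the supremum `gm_F` over the sets `U` with `IsOpen U`; lower semicontinuity; existence of minimisers.
-/
import Claimed.Agent.R210.GM.Exc.Dec
import Claimed.Agent.R210.GM.UtilD

set_option autoImplicit false

open Set Filter MeasureTheory
open scoped ENNReal NNReal Topology

namespace Claimed.Agent.R210.GM.Exc.Lsc

open Claimed.Agent.R210.GM.Defs Claimed.Agent.R210.GM.UtilC Claimed.Agent.R210.GM.UtilD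
  Claimed.Agent.R210.GM.Exc.Dec

noncomputable section

variable {X : Type*} [MetricSpace X] [MeasurableSpace X] [BorelSpace X] {m ν : Measure X} {C : ℝ≥0}

/-- `ν B = ν^s B + ∫_B ρ ≤ ν^s(X) + ∫_B (ρ - C) + C m B` (`le_tsub_add`). -/
theorem gm1_le_F_add [SigmaFinite m] [IsFiniteMeasure ν] {B : Set X} (hB : MeasurableSet B) :
    ν B ≤ gm1_F m C ν + C * m B := by
  have h := gm1_dec_self (m := m) (ν := ν)
  have e : ν B = ν.singularPart m B + ∫⁻ x in B, ν.rnDeriv m x ∂m := by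
    have e1 : ν B = (ν.singularPart m + m.withDensity (ν.rnDeriv m)) B :=
      congrArg (fun μ : Measure X => μ B) h.add
    rw [e1, Measure.add_apply, withDensity_apply _ hB]
  rw [e]
  unfold gm1_F
  have h1 : ν.singularPart m B ≤ ν.singularPart m univ := measure_mono (subset_univ _)
  have h2 : ∫⁻ x in B, ν.rnDeriv m x ∂m ≤ ∫⁻ x, (ν.rnDeriv m x - C) ∂m + C * m B := by
    calc ∫⁻ x in B, ν.rnDeriv m x ∂m ≤ ∫⁻ x in B, ((ν.rnDeriv m x - C) + C) ∂m :=
          lintegral_mono fun x => le_tsub_add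
      _ = ∫⁻ x in B, (ν.rnDeriv m x - C) ∂m + ∫⁻ _ in B, (C : ℝ≥0∞) ∂m :=
          lintegral_add_right _ measurable_const
      _ ≤ ∫⁻ x, (ν.rnDeriv m x - C) ∂m + C * m B := by
          rw [setLIntegral_const]
          exact add_le_add (setLIntegral_le_lintegral _ _) le_rfl
  calc ν.singularPart m B + ∫⁻ x in B, ν.rnDeriv m x ∂m
      ≤ ν.singularPart m univ + (∫⁻ x, (ν.rnDeriv m x - C) ∂m + C * m B) := add_le_add h1 h2
    _ = ∫⁻ x, (ν.rnDeriv m x - C) ∂m + ν.singularPart m univ + C * m B := by ring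

/-- there is a measurable `B` with `m B < ∞` and `F ν + C m B ≤ ν B`: `B = {ρ > C} ∪ Sg`, `Sg` an `m`-null set carrying `ν^s`
(`(Measure.mutuallySingular_singularPart ν m).nullSet`), use `gm1_F_add_vol`, `gm1_vol_lt_top`. -/
theorem gm1_exists_set [SigmaFinite m] [IsFiniteMeasure ν] (hC : 0 < C) :
    ∃ B : Set X, MeasurableSet B ∧ m B < ∞ ∧ gm1_F m C ν + C * m B ≤ ν B := by
  have h := gm1_dec_self (m := m) (ν := ν)
  set A : Set X := {x | (C : ℝ≥0∞) < ν.rnDeriv m x} with hA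
  have hAm : MeasurableSet A := measurableSet_lt measurable_const h.meas
  set Sg : Set X := (h.sing.nullSet)ᶜ with hSg
  have hSm : MeasurableSet Sg := h.sing.measurableSet_nullSet.compl
  have hS0 : m Sg = 0 := h.sing.measure_compl_nullSet
  have hSc : ν.singularPart m Sgᶜ = 0 := by
    rw [hSg, compl_compl]
    exact h.sing.measure_nullSet
  have hSu : ν.singularPart m univ = ν.singularPart m Sg := by
    rw [← measure_add_measure_compl hSm, hSc, add_zero]
  have hBm : MeasurableSet (A ∪ Sg) := hAm.union hSm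
  have hmB : m (A ∪ Sg) = m A := by
    refine le_antisymm ?_ (measure_mono subset_union_left)
    calc m (A ∪ Sg) ≤ m A + m Sg := measure_union_le _ _
      _ = m A := by rw [hS0, add_zero]
  refine ⟨A ∪ Sg, hBm, ?_, ?_⟩
  · rw [hmB]
    exact gm1_vol_lt_top h hC
  · rw [hmB, gm1_F_add_vol h]
    have e : ν (A ∪ Sg) = ν.singularPart m (A ∪ Sg) + ∫⁻ x in A ∪ Sg, ν.rnDeriv m x ∂m := by
      have e1 : ν (A ∪ Sg) = (ν.singularPart m + m.withDensity (ν.rnDeriv m)) (A ∪ Sg) :=
        congrArg (fun μ : Measure X => μ (A ∪ Sg)) h.add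
      rw [e1, Measure.add_apply, withDensity_apply _ hBm]
    rw [e, hSu]
    exact add_le_add (measure_mono subset_union_right) (lintegral_mono_set subset_union_left)

/-- `≥`: `gm1_le_F_add` + `tsub_le_iff_right`. `≤`: `B` from `gm1_exists_set`, `U ⊇ B` with `IsOpen U`, `m U ≤ m B + ε` (`Set.exists_isOpen_lt_add`);
`F ν + C m B ≤ ν U ≤ (ν U - C m U) + C m U ≤ gm_F + C m B + C ε`; cancel the finite `C m B`; `ENNReal.le_of_forall_pos_le_add`. -/
theorem gm1_F_eq_gm_F [SigmaFinite m] [m.OuterRegular] [IsFiniteMeasure ν] (hC : 0 < C) :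
    gm1_F m C ν = gm_F m C ν := by
  apply le_antisymm
  · obtain ⟨B, hB, hmB, hFB⟩ := gm1_exists_set (m := m) (ν := ν) hC
    refine ENNReal.le_of_forall_pos_le_add fun ε hε _ => ?_
    have hδ : ((ε / C : ℝ≥0) : ℝ≥0∞) ≠ 0 := by
      rw [ENNReal.coe_ne_zero]
      exact (div_pos hε hC).ne'
    obtain ⟨U, hBU, hU, hmU⟩ := B.exists_isOpen_lt_add hmB.ne hδ
    have hCδ : (C : ℝ≥0∞) * ((ε / C : ℝ≥0) : ℝ≥0∞) = ε := by
      rw [← ENNReal.coe_mul, mul_div_cancel₀ _ hC.ne']
    have hCB : (C : ℝ≥0∞) * m B ≠ ∞ := ENNReal.mul_ne_top ENNReal.coe_ne_top hmB.ne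
    have h1 : ν U - C * m U ≤ gm_F m C ν := le_iSup₂_of_le U hU le_rfl
    have h2 : gm1_F m C ν + C * m B ≤ (gm_F m C ν + ε) + C * m B :=
      calc gm1_F m C ν + C * m B ≤ ν B := hFB
        _ ≤ ν U := measure_mono hBU
        _ ≤ (ν U - C * m U) + C * m U := le_tsub_add
        _ ≤ gm_F m C ν + C * (m B + ((ε / C : ℝ≥0) : ℝ≥0∞)) := by gcongr
        _ = (gm_F m C ν + ε) + C * m B := by rw [mul_add, hCδ]; ring
    exact (ENNReal.add_le_add_iff_right hCB).1 h2
  · exact iSup₂_le fun U hU => tsub_le_iff_right.2 (gm1_le_F_add hU.measurableSet)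

/-- `gm_lsc_open`, `ENNReal.continuous_sub_right` + monotone (`Continuous.comp_lowerSemicontinuous`), `lowerSemicontinuous_biSup`/`iSup`. -/
theorem gm1_gm_F_lsc (C : ℝ≥0∞) : LowerSemicontinuous (fun ν : ProbabilityMeasure X => gm_F m C (ν : Measure X)) := by
  unfold gm_F
  refine lowerSemicontinuous_iSup fun U => lowerSemicontinuous_iSup fun hU => ?_
  have hc : Continuous (fun a : ℝ≥0∞ => a - C * m U) := ENNReal.continuous_sub_right _
  have hm : Monotone (fun a : ℝ≥0∞ => a - C * m U) := fun a b h => tsub_le_tsub_right h _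
  exact hc.comp_lowerSemicontinuous (gm_lsc_open hU) hm

/-- `LowerSemicontinuousOn.exists_isMinOn` -/
theorem gm1_exists_min [SigmaFinite m] [m.OuterRegular] (hC : 0 < C) {I : Set (ProbabilityMeasure X)}
    (hI : IsCompact I) (hne : I.Nonempty) :
    ∃ ν ∈ I, ∀ ν' ∈ I, gm1_F m C (ν : Measure X) ≤ gm1_F m C (ν' : Measure X) := by
  have hl : LowerSemicontinuousOn (fun ν : ProbabilityMeasure X => gm_F m C (ν : Measure X)) I :=
    (gm1_gm_F_lsc (m := m) C).lowerSemicontinuousOn I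
  obtain ⟨ν, hν, hmin⟩ := hl.exists_isMinOn hne hI
  refine ⟨ν, hν, fun ν' hν' => ?_⟩
  rw [gm1_F_eq_gm_F hC, gm1_F_eq_gm_F hC]
  exact hmin hν'

end

end Claimed.Agent.R210.GM.Exc.Lsc
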