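/-
Row 210 (S0432), layer GM (architect helper666), block F = excess mass functional (sub-architect helper988).
File 3: convex combinations of minimisers; a minimiser with maximal volume of `{ρ > C}`.   Pure measure theory.
-/
import Claimed.Agent.R210.GM.Exc.Dec

set_option autoImplicit false

open Set Filter MeasureTheory
open scoped ENNReal NNReal Topology

namespace Claimed.Agent.R210.GM.Exc.Comb

open Claimed.Agent.R210.GM.Exc.Dec

noncomputable section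

variable {X : Type*} [MeasurableSpace X] {m : Measure X} {C : ℝ≥0} {𝒜 : Set (Measure X)}

/-- `ν` minimises `gm1_F m C` on `𝒜` -/
def gm1_IsMin (m : Measure X) (C : ℝ≥0) (𝒜 : Set (Measure X)) (ν : Measure X) : Prop :=
  ν ∈ 𝒜 ∧ ∀ ν' ∈ 𝒜, gm1_F m C ν ≤ gm1_F m C ν'

/-- the weights `2^{-(i+1)}` -/
def gm1_w (i : ℕ) : ℝ≥0∞ := (2 : ℝ≥0∞)⁻¹ ^ (i + 1)

/-- `ENNReal.tsum_geometric_add_one` -/
theorem gm1_w_sum : ∑' i, gm1_w i = 1 := by
  unfold gm1_w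
  rw [ENNReal.tsum_geometric_add_one, ENNReal.one_sub_inv_two]
  exact ENNReal.mul_inv_cancel (by simp) (by simp)

theorem gm1_w_pos (i : ℕ) : 0 < gm1_w i := by
  unfold gm1_w
  exact ENNReal.pow_pos (by simp) _

/-- pointwise: `∑ w_i g_i - C ≤ ∑ w_i (g_i - C)` if `∑ w_i = 1`
(`∑ w_i g_i ≤ ∑ w_i ((g_i - C) + C) = ∑ w_i (g_i - C) + C`; `tsub_le_iff_right`, `ENNReal.tsum_add`, `ENNReal.tsum_mul_right`). -/
theorem gm1_tsum_sub_le {w : ℕ → ℝ≥0∞} (hw : ∑' i, w i = 1) (a : ℕ → ℝ≥0∞) (C : ℝ≥0∞) :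
    ∑' i, w i * a i - C ≤ ∑' i, w i * (a i - C) := by
  rw [tsub_le_iff_right]
  calc ∑' i, w i * a i ≤ ∑' i, (w i * (a i - C) + w i * C) := by
        refine ENNReal.tsum_le_tsum fun i => ?_
        rw [← mul_add]
        gcongr
        exact le_tsub_add
    _ = ∑' i, w i * (a i - C) + ∑' i, w i * C := ENNReal.tsum_add
    _ = ∑' i, w i * (a i - C) + C := by rw [ENNReal.tsum_mul_right, hw, one_mul]

/-- value of `F` on a countable combination, via `gm1_dec_sum`, `gm1_F_of_dec`, `Measure.sum_apply`. -/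
theorem gm1_F_sum [SigmaFinite m] {νs : ℕ → Measure X} (hfin : ∀ i, IsFiniteMeasure (νs i)) (w : ℕ → ℝ≥0∞) :
    gm1_F m C (Measure.sum fun i => w i • νs i) =
      ∫⁻ x, (∑' i, w i * (νs i).rnDeriv m x - C) ∂m + ∑' i, w i * (νs i).singularPart m univ := by
  have h := gm1_dec_sum (m := m) (νs := νs) (fun i => gm1_dec_self) w
  rw [gm1_F_of_dec h, Measure.sum_apply _ MeasurableSet.univ]
  simp only [Measure.smul_apply, smul_eq_mul]

/-- `∑ w_i F(ν_i) = ∫ ∑ w_i (ρ_i - C) + ∑ w_i ν_i^s(X)` (`lintegral_tsum`, `lintegral_const_mul`, `ENNReal.tsum_add`) -/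
theorem gm1_sum_F (νs : ℕ → Measure X) (w : ℕ → ℝ≥0∞) :
    ∑' i, w i * gm1_F m C (νs i) =
      ∫⁻ x, ∑' i, w i * ((νs i).rnDeriv m x - C) ∂m + ∑' i, w i * (νs i).singularPart m univ := by
  have hm : ∀ i, Measurable fun x => (νs i).rnDeriv m x - (C : ℝ≥0∞) := fun i =>
    (Measure.measurable_rnDeriv (νs i) m).sub measurable_const
  unfold gm1_F
  simp only [mul_add]
  rw [ENNReal.tsum_add, lintegral_tsum (fun i => ((hm i).const_mul (w i)).aemeasurable)]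
  congr 1
  refine tsum_congr fun i => ?_
  rw [lintegral_const_mul _ (hm i)]

/-- **combination of minimisers.**  `ν = ∑ w_i ν_i` (`w = gm1_w`) is in `𝒜`, `F ν ≤ ∑ w_i F ν_i = min`, so `ν` is a minimiser and
`∫ (∑ w_i ρ_i - C) = ∫ ∑ w_i (ρ_i - C)` (all finite: cancel `∑ w_i ν_i^s(X) ≤ 1`); with `gm1_tsum_sub_le` the integrands agree a.e.
(`ae_eq_of_ae_le_of_lintegral_le`).  At such `x`: `ρ_j x > C ⟹ ∑ w_i (ρ_i - C) > 0 ⟹ ∑ w_i ρ_i x > C`; finally `gm1_dec_rn` for `gm1_dec_sum`. -/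
theorem gm1_comb [SigmaFinite m] (hprob : ∀ ν ∈ 𝒜, IsProbabilityMeasure ν)
    (hsum : ∀ (νs : ℕ → Measure X) (w : ℕ → ℝ≥0∞), (∀ i, νs i ∈ 𝒜) → ∑' i, w i = 1 →
      Measure.sum (fun i => w i • νs i) ∈ 𝒜)
    {νs : ℕ → Measure X} (h : ∀ i, gm1_IsMin m C 𝒜 (νs i)) :
    ∃ ν, gm1_IsMin m C 𝒜 ν ∧
      ∀ i, m ({x | (C : ℝ≥0∞) < (νs i).rnDeriv m x} \ {x | (C : ℝ≥0∞) < ν.rnDeriv m x}) = 0 := by
  have hp : ∀ i, IsProbabilityMeasure (νs i) := fun i => hprob _ (h i).1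
  have hfin : ∀ i, IsFiniteMeasure (νs i) := fun i => inferInstance
  set ν : Measure X := Measure.sum fun i => gm1_w i • νs i with hν
  have hνA : ν ∈ 𝒜 := hsum νs gm1_w (fun i => (h i).1) gm1_w_sum
  set F0 := gm1_F m C (νs 0) with hF0
  have hFi : ∀ i, gm1_F m C (νs i) = F0 := fun i =>
    le_antisymm ((h i).2 _ (h 0).1) ((h 0).2 _ (h i).1)
  have hF0fin : F0 ≠ ∞ :=
    ne_top_of_le_ne_top (measure_ne_top (νs 0) univ) gm1_F_le_mass
  have hsumF : ∑' i, gm1_w i * gm1_F m C (νs i) = F0 := by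
    simp only [hFi]
    rw [ENNReal.tsum_mul_right, gm1_w_sum, one_mul]
  set S : ℝ≥0∞ := ∑' i, gm1_w i * (νs i).singularPart m univ with hS
  have hSfin : S ≠ ∞ := by
    have : S ≤ F0 := by
      rw [← hsumF, gm1_sum_F]
      exact le_add_self
    exact ne_top_of_le_ne_top hF0fin this
  have hle : ∀ x, (∑' i, gm1_w i * (νs i).rnDeriv m x - (C : ℝ≥0∞))
      ≤ ∑' i, gm1_w i * ((νs i).rnDeriv m x - (C : ℝ≥0∞)) := fun x =>
    gm1_tsum_sub_le gm1_w_sum _ _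
  have hFν : gm1_F m C ν = ∫⁻ x, (∑' i, gm1_w i * (νs i).rnDeriv m x - (C : ℝ≥0∞)) ∂m + S :=
    gm1_F_sum hfin gm1_w
  have hF0' : F0 = ∫⁻ x, ∑' i, gm1_w i * ((νs i).rnDeriv m x - (C : ℝ≥0∞)) ∂m + S := by
    rw [← hsumF, gm1_sum_F]
  have hνle : gm1_F m C ν ≤ F0 := by
    rw [hFν, hF0']
    gcongr
    exact hle _
  have hνge : F0 ≤ gm1_F m C ν := (h 0).2 _ hνA
  have hmin : gm1_IsMin m C 𝒜 ν := ⟨hνA, fun ν' hν' => hνle.trans ((h 0).2 _ hν')⟩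
  refine ⟨ν, hmin, fun j => ?_⟩
  have hint : ∫⁻ x, ∑' i, gm1_w i * ((νs i).rnDeriv m x - (C : ℝ≥0∞)) ∂m
      ≤ ∫⁻ x, (∑' i, gm1_w i * (νs i).rnDeriv m x - (C : ℝ≥0∞)) ∂m := by
    rw [hFν, hF0'] at hνge
    exact (ENNReal.add_le_add_iff_right hSfin).1 hνge
  have hfin1 : ∫⁻ x, (∑' i, gm1_w i * (νs i).rnDeriv m x - (C : ℝ≥0∞)) ∂m ≠ ∞ := by
    refine ne_top_of_le_ne_top hF0fin (le_trans ?_ hνle)
    rw [hFν]
    exact le_self_add
  have hmeas : Measurable fun x => ∑' i, gm1_w i * ((νs i).rnDeriv m x - (C : ℝ≥0∞)) :=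
    Measurable.ennreal_tsum fun i =>
      ((Measure.measurable_rnDeriv (νs i) m).sub measurable_const).const_mul _
  have hae := ae_eq_of_ae_le_of_lintegral_le (Eventually.of_forall hle) hfin1 hmeas.aemeasurable hint
  have hrn := gm1_dec_rn (gm1_dec_sum (m := m) (νs := νs) (fun i => gm1_dec_self) gm1_w)
  rw [measure_eq_zero_iff_ae_notMem]
  filter_upwards [hae, hrn] with x hx1 hx2 hx3
  apply hx3.2
  show (C : ℝ≥0∞) < ν.rnDeriv m x
  rw [← hx2]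
  have hj : (C : ℝ≥0∞) < (νs j).rnDeriv m x := hx3.1
  have hpos : 0 < ∑' i, gm1_w i * ((νs i).rnDeriv m x - (C : ℝ≥0∞)) := by
    refine lt_of_lt_of_le ?_ (ENNReal.le_tsum j)
    exact ENNReal.mul_pos (gm1_w_pos j).ne' (tsub_pos_of_lt hj).ne'
  rw [← hx1] at hpos
  exact tsub_pos_iff_lt.1 hpos

/-- `m A ≤ m B` if `m (A \ B) = 0` -/
theorem gm1_measure_le_of_diff {A B : Set X} (h : m (A \ B) = 0) : m A ≤ m B := by
  calc m A ≤ m (B ∪ A \ B) := measure_mono (by intro x hx; by_cases hB : x ∈ B; exacts [Or.inl hB, Or.inr ⟨hx, hB⟩])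
    _ ≤ m B + m (A \ B) := measure_union_le _ _
    _ = m B := by rw [h, add_zero]

/-- **a minimiser with maximal volume.**  `exists_seq_tendsto_sSup` for the set of values `gm1_V m C ν`, `ν` minimiser; `gm1_comb`;
`m A ≤ m B` if `m (A \ B) = 0`. -/
theorem gm1_exists_maxV [SigmaFinite m] (hprob : ∀ ν ∈ 𝒜, IsProbabilityMeasure ν)
    (hsum : ∀ (νs : ℕ → Measure X) (w : ℕ → ℝ≥0∞), (∀ i, νs i ∈ 𝒜) → ∑' i, w i = 1 →
      Measure.sum (fun i => w i • νs i) ∈ 𝒜)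
    (hmin : ∃ ν, gm1_IsMin m C 𝒜 ν) :
    ∃ ν, gm1_IsMin m C 𝒜 ν ∧ ∀ ν', gm1_IsMin m C 𝒜 ν' → gm1_V m C ν' ≤ gm1_V m C ν := by
  set T : Set ℝ≥0∞ := {v | ∃ ν, gm1_IsMin m C 𝒜 ν ∧ gm1_V m C ν = v} with hT
  have hTne : T.Nonempty := by
    obtain ⟨ν, hν⟩ := hmin
    exact ⟨_, ν, hν, rfl⟩
  obtain ⟨u, -, hu, huT⟩ := exists_seq_tendsto_sSup hTne (OrderTop.bddAbove T)
  choose νs hνs hV using huT
  obtain ⟨ν, hν, hnull⟩ := gm1_comb hprob hsum hνs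
  refine ⟨ν, hν, fun ν' hν' => ?_⟩
  have h1 : gm1_V m C ν' ≤ sSup T := le_sSup ⟨ν', hν', rfl⟩
  refine h1.trans (le_of_tendsto' hu fun n => ?_)
  rw [← hV n]
  exact gm1_measure_le_of_diff (hnull n)

/-- two minimisers: there is a minimiser whose `{ρ > C}` contains both (apply `gm1_comb` to `ν, ν', ν', …`). -/
theorem gm1_comb_two [SigmaFinite m] (hprob : ∀ ν ∈ 𝒜, IsProbabilityMeasure ν)
    (hsum : ∀ (νs : ℕ → Measure X) (w : ℕ → ℝ≥0∞), (∀ i, νs i ∈ 𝒜) → ∑' i, w i = 1 →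
      Measure.sum (fun i => w i • νs i) ∈ 𝒜)
    {ν ν' : Measure X} (h : gm1_IsMin m C 𝒜 ν) (h' : gm1_IsMin m C 𝒜 ν') :
    ∃ ν'', gm1_IsMin m C 𝒜 ν'' ∧
      m ({x | (C : ℝ≥0∞) < ν.rnDeriv m x} ∪ {x | (C : ℝ≥0∞) < ν'.rnDeriv m x}) ≤ gm1_V m C ν'' := by
  have hs : ∀ i : ℕ, gm1_IsMin m C 𝒜 (if i = 0 then ν else ν') := by
    intro i
    split_ifs
    exacts [h, h']
  obtain ⟨ν'', hν'', hnull⟩ := gm1_comb hprob hsum hs
  refine ⟨ν'', hν'', gm1_measure_le_of_diff ?_⟩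
  have h0 := hnull 0
  have h1 := hnull 1
  simp only [if_true, one_ne_zero, if_false] at h0 h1
  rw [union_sdiff_distrib]
  exact measure_union_null h0 h1

end

end Claimed.Agent.R210.GM.Exc.Comb
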