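/-
Row 210 (S0432), layer GM (architect helper666), block F = excess mass functional (sub-architect helper988).
File 4: the weight `f_ε` which cuts a part of the excess.   Pure measure theory.
-/
import Claimed.Agent.R210.GM.Exc.Dec

set_option autoImplicit false

open Set Filter MeasureTheory
open scoped ENNReal NNReal Topology

namespace Claimed.Agent.R210.GM.Exc.Cut

open Claimed.Agent.R210.GM.Exc.Dec

noncomputable section

variable {X : Type*} [MeasurableSpace X] {m ν η : Measure X} {g f : X → ℝ≥0∞} {C ε : ℝ≥0}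

/-- `f` is a cutting weight at level `ε` for the decomposition `ν = η + g m`:
`f ≤ ε`, `f = ε` on the singular part, `f g = min (ε g) (g - C)` on the absolutely continuous part. -/
structure gm1_IsCut (m η : Measure X) (g : X → ℝ≥0∞) (C ε : ℝ≥0) (f : X → ℝ≥0∞) : Prop where
  meas : Measurable f
  le : ∀ x, f x ≤ ε
  sing : ∀ᵐ x ∂η, f x = ε
  ac : ∀ᵐ x ∂m, f x * g x = min (ε * g x) (g x - C)

/-- existence: with `S = h.sing.nullSet` (`η S = 0`, `m Sᶜ = 0`) put `f = ε` on `Sᶜ` and `f = min (ε g) (g - C) / g` on `S`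
(`Measurable.piecewise` or `Measurable.ite`; `ENNReal.div_le_of_le_mul`; `ENNReal.div_mul_cancel` where `0 < g < ∞`; where `g = 0` both sides vanish;
`g < ∞` a.e. by `gm1_dec_lt_top`). -/
theorem gm1_exists_isCut [IsFiniteMeasure ν] (h : gm1_Dec m ν η g) (C ε : ℝ≥0) :
    ∃ f, gm1_IsCut m η g C ε f := by
  classical
  have hS : MeasurableSet h.sing.nullSet := h.sing.measurableSet_nullSet
  have hηS : η h.sing.nullSet = 0 := h.sing.measure_nullSet
  have hmS : m h.sing.nullSetᶜ = 0 := h.sing.measure_compl_nullSet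
  have hg := h.meas
  refine ⟨h.sing.nullSet.piecewise (fun x => min ((ε : ℝ≥0∞) * g x) (g x - C) / g x)
    (fun _ => (ε : ℝ≥0∞)), ?_, ?_, ?_, ?_⟩
  · exact Measurable.piecewise hS
      (((hg.const_mul _).min (hg.sub measurable_const)).div hg) measurable_const
  · intro x
    by_cases hx : x ∈ h.sing.nullSet
    · rw [Set.piecewise_eq_of_mem _ _ _ hx]
      exact ENNReal.div_le_of_le_mul (min_le_left _ _)
    · rw [Set.piecewise_eq_of_notMem _ _ _ hx]
  · have : ∀ᵐ x ∂η, x ∈ h.sing.nullSetᶜ := by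
      rw [ae_iff]
      simp [hηS]
    filter_upwards [this] with x hx
    rw [Set.piecewise_eq_of_notMem _ _ _ hx]
  · have h1 : ∀ᵐ x ∂m, x ∈ h.sing.nullSet := by
      rw [ae_iff]
      exact hmS
    filter_upwards [h1, gm1_dec_lt_top h] with x hx hfin
    rw [Set.piecewise_eq_of_mem _ _ _ hx]
    by_cases h0 : g x = 0
    · simp [h0]
    · exact ENNReal.div_mul_cancel h0 hfin.ne

/-- the mass which is cut (`gm1_lintegral`, `lintegral_congr_ae`) -/
theorem gm1_cut_mass (h : gm1_Dec m ν η g) (hf : gm1_IsCut m η g C ε f) :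
    ∫⁻ x, f x ∂ν = ε * η univ + ∫⁻ x, min (ε * g x) (g x - C) ∂m := by
  rw [gm1_lintegral h hf.meas, lintegral_congr_ae hf.sing, lintegral_congr_ae hf.ac, lintegral_const]

/-- `min (g) ((n+1) (g - C))` increases to `g 1_{g > C}`; monotone convergence (`lintegral_iSup`, or `lintegral_tendsto_of_tendsto_of_monotone`). -/
theorem gm1_iSup_lintegral_min (hg : Measurable g) (C : ℝ≥0) :
    ⨆ n : ℕ, ∫⁻ x, min (g x) (((n : ℝ≥0∞) + 1) * (g x - C)) ∂m = ∫⁻ x in {x | (C : ℝ≥0∞) < g x}, g x ∂m := by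
  have hmeas : ∀ n : ℕ, Measurable (fun x => min (g x) (((n : ℝ≥0∞) + 1) * (g x - C))) :=
    fun n => hg.min (measurable_const.mul (hg.sub measurable_const))
  have hmono : Monotone (fun (n : ℕ) (x : X) => min (g x) (((n : ℝ≥0∞) + 1) * (g x - C))) := by
    intro i j hij x
    have h1 : ((i : ℝ≥0∞) + 1) ≤ (j : ℝ≥0∞) + 1 := by
      gcongr
    exact min_le_min le_rfl (mul_le_mul_left h1 _)
  have htop : ⨆ n : ℕ, ((n : ℝ≥0∞) + 1) = ∞ := by
    rw [eq_top_iff, ← ENNReal.iSup_natCast]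
    exact iSup_mono (fun n => le_self_add)
  rw [← lintegral_iSup hmeas hmono, ← lintegral_indicator (measurableSet_lt measurable_const hg)]
  refine lintegral_congr (fun x => ?_)
  by_cases hx : (C : ℝ≥0∞) < g x
  · have hδ : g x - C ≠ 0 := (tsub_pos_of_lt hx).ne'
    rw [indicator_of_mem (show x ∈ {x | (C : ℝ≥0∞) < g x} from hx), ← inf_iSup_eq, ← ENNReal.iSup_mul, htop,
      ENNReal.top_mul hδ]
    exact inf_top_eq _
  · have h0 : g x - C = 0 := tsub_eq_zero_of_le (not_lt.1 hx)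
    rw [indicator_of_notMem (show x ∉ {x | (C : ℝ≥0∞) < g x} from hx)]
    simp [h0]

/-- **choice of `ε`.**  By `gm1_F_add_vol`, `η(X) + ∫_{g>C} g = F ν + C m{g>C} > C m{g>C}` (the volume is finite: `gm1_vol_lt_top`).
By `gm1_iSup_lintegral_min` there is `n` with `C m{g>C} < η(X) + ∫ min g ((n+1)(g-C))`; `ε = 1/(n+1)`:
`min (ε g) (g - C) = ε min g ((n+1)(g-C))`; multiply by `ε`. -/
theorem gm1_exists_eps [SigmaFinite m] [IsFiniteMeasure ν] (h : gm1_Dec m ν η g) (hC : 0 < C)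
    (hF : gm1_F m C ν ≠ 0) :
    ∃ ε : ℝ≥0, 0 < ε ∧ ε ≤ 1 ∧
      ε * C * m {x | (C : ℝ≥0∞) < g x} < ε * η univ + ∫⁻ x, min (ε * g x) (g x - C) ∂m := by
  have hV : m {x | (C : ℝ≥0∞) < g x} < ∞ := gm1_vol_lt_top h hC
  have hCV : (C : ℝ≥0∞) * m {x | (C : ℝ≥0∞) < g x} ≠ ∞ :=
    ENNReal.mul_ne_top ENNReal.coe_ne_top hV.ne
  have h1 : (C : ℝ≥0∞) * m {x | (C : ℝ≥0∞) < g x}
      < η univ + ∫⁻ x in {x | (C : ℝ≥0∞) < g x}, g x ∂m := by
    rw [← gm1_F_add_vol h, add_comm]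
    exact ENNReal.lt_add_right hCV hF
  rw [← gm1_iSup_lintegral_min h.meas C, ENNReal.add_iSup, lt_iSup_iff] at h1
  obtain ⟨n, hn⟩ := h1
  have hn1 : (0 : ℝ≥0) < (n : ℝ≥0) + 1 := by positivity
  refine ⟨((n : ℝ≥0) + 1)⁻¹, inv_pos.2 hn1, ?_, ?_⟩
  · apply inv_le_one_of_one_le₀
    exact le_add_of_nonneg_left zero_le
  · set ε : ℝ≥0 := ((n : ℝ≥0) + 1)⁻¹ with hε
    have hε0 : (ε : ℝ≥0∞) ≠ 0 := by
      rw [ENNReal.coe_ne_zero]; exact (inv_pos.2 hn1).ne'
    have hmul : (ε : ℝ≥0∞) * ((n : ℝ≥0∞) + 1) = 1 := by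
      have : ε * ((n : ℝ≥0) + 1) = 1 := inv_mul_cancel₀ hn1.ne'
      have h2 : ((ε * ((n : ℝ≥0) + 1) : ℝ≥0) : ℝ≥0∞) = 1 := by rw [this]; rfl
      rw [ENNReal.coe_mul, ENNReal.coe_add, ENNReal.coe_natCast, ENNReal.coe_one] at h2
      exact h2
    have hmin : ∀ x, min ((ε : ℝ≥0∞) * g x) (g x - C)
        = (ε : ℝ≥0∞) * min (g x) (((n : ℝ≥0∞) + 1) * (g x - C)) := by
      intro x
      have hmono : Monotone (fun y : ℝ≥0∞ => (ε : ℝ≥0∞) * y) := fun a b hab =>
        mul_le_mul_right hab _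
      have := hmono.map_min (a := g x) (b := ((n : ℝ≥0∞) + 1) * (g x - C))
      rw [this, ← mul_assoc, hmul, one_mul]
    have hmeas : Measurable (fun x => min (g x) (((n : ℝ≥0∞) + 1) * (g x - C))) :=
      h.meas.min ((h.meas.sub measurable_const).const_mul _)
    simp_rw [hmin]
    rw [lintegral_const_mul _ hmeas, ← mul_add, mul_assoc]
    exact (ENNReal.mul_lt_mul_iff_right hε0 ENNReal.coe_ne_top).2 hn

end

end Claimed.Agent.R210.GM.Exc.Cut
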