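/-
Row 210 (S0432), layer GM (architect helper666), block F = excess mass functional (sub-architect helper988).
File 5: the effect of a surgery on the excess mass.   Pure measure theory.
-/
import Claimed.Agent.R210.GM.Exc.Cut

set_option autoImplicit false

open Set Filter MeasureTheory
open scoped ENNReal NNReal Topology

namespace Claimed.Agent.R210.GM.Exc.Surg

open Claimed.Agent.R210.GM.Exc.Dec Claimed.Agent.R210.GM.Exc.Cut

noncomputable section

variable {X : Type*} [MeasurableSpace X] {m ν η σ η' : Measure X} {g g' f : X → ℝ≥0∞} {C ε : ℝ≥0}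

/-- the pointwise identity for finite numbers -/
theorem gm1_pointwise_nn (y z C e : ℝ≥0) :
    ((y - min e (y - C)) + z - C) + min z (C - y) + min e (y - C) = (y - C) + z := by
  apply NNReal.eq
  simp only [NNReal.coe_add, NNReal.coe_sub_def, NNReal.coe_min]
  have hy : (0 : ℝ) ≤ (y : ℝ) := NNReal.coe_nonneg y
  have hz : (0 : ℝ) ≤ (z : ℝ) := NNReal.coe_nonneg z
  have hC : (0 : ℝ) ≤ (C : ℝ) := NNReal.coe_nonneg C
  have he : (0 : ℝ) ≤ (e : ℝ) := NNReal.coe_nonneg e
  generalize (y : ℝ) = y' at *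
  generalize (z : ℝ) = z' at *
  generalize (C : ℝ) = C' at *
  generalize (e : ℝ) = e' at *
  simp only [max_def, min_def]
  split_ifs <;> linarith

theorem gm1_one_sub_mul {y φ : ℝ≥0∞} (hy : y < ∞) : (1 - φ) * y = y - φ * y := by
  rw [ENNReal.sub_mul (fun _ _ => hy.ne), one_mul]

/-- pointwise identity. `y = g x < ∞`, `φ = f x ≤ 1` with `φ y = h := min (ε y) (y - C)`, `z = a g' x`.
Then `(1-φ) y = y - h`.  If `y > C`: `y - h ≥ C`, `C - y = 0`, both sides are `(y - h - C) + z + h = (y - C) + z`.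
If `y ≤ C`: `h = 0` and `(y + z - C) + min z (C - y) = z`. -/
theorem gm1_pointwise {y φ z : ℝ≥0∞} {C ε : ℝ≥0} (hy : y < ∞) (hφ : φ ≤ 1)
    (hφy : φ * y = min (ε * y) (y - C)) :
    ((1 - φ) * y + z - C) + min z (C - y) + min (ε * y) (y - C) = (y - C) + z := by
  rw [gm1_one_sub_mul hy, hφy]
  rcases eq_or_ne z ∞ with rfl | hz
  · simp
  · lift y to ℝ≥0 using hy.ne
    lift z to ℝ≥0 using hz
    have := gm1_pointwise_nn y z C (ε * y)
    exact_mod_cast this

/-- the singular part after surgery: `∫ (1 - f) dη + ε η(X) = η(X)` if `f = ε ≤ 1` `η`-a.e. -/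
theorem gm1_sing_mass [IsFiniteMeasure η] (hε : ε ≤ 1) (hf : ∀ᵐ x ∂η, f x = ε) :
    (η.withDensity fun x => 1 - f x) univ + ε * η univ = η univ := by
  rw [withDensity_apply _ MeasurableSet.univ, Measure.restrict_univ]
  have h1 : ∫⁻ x, (1 - f x) ∂η = ∫⁻ _x, (1 - (ε : ℝ≥0∞)) ∂η := by
    refine lintegral_congr_ae ?_
    filter_upwards [hf] with x hx
    rw [hx]
  rw [h1, lintegral_const, ← add_mul, tsub_add_cancel_of_le (by exact_mod_cast hε), one_mul]

/-- **excess mass after surgery.**  With `a = ∫ f dν = ε η(X) + ∫ h`, `h = min (ε g) (g - C)` (`gm1_cut_mass`), the decomposition `gm1_dec_surgery`,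
`gm1_F_of_dec`, integrate `gm1_pointwise` (`z = a g'`), `gm1_sing_mass`, `σ(X) = η'(X) + ∫ g' = 1`:
`F ν' + ∫ min (a g') (C - g) + a = F ν + a`; cancel the finite `a`. -/
theorem gm1_F_surgery [SigmaFinite m] [IsFiniteMeasure ν] [IsProbabilityMeasure σ] (h : gm1_Dec m ν η g)
    (h' : gm1_Dec m σ η' g') (hε : ε ≤ 1) (hf : gm1_IsCut m η g C ε f) :
    gm1_F m C (ν.withDensity (fun x => 1 - f x) + (∫⁻ x, f x ∂ν) • σ)
      + ∫⁻ x, min ((∫⁻ x, f x ∂ν) * g' x) (C - g x) ∂m = gm1_F m C ν := by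
  obtain ⟨a, ha_def⟩ : ∃ a, a = ∫⁻ x, f x ∂ν := ⟨_, rfl⟩
  rw [← ha_def]
  have hε' : (ε : ℝ≥0∞) ≤ 1 := by exact_mod_cast hε
  -- `a` is finite
  have ha_top : a ≠ ∞ := by
    have h1 : a ≤ ε * ν univ := by
      rw [ha_def, ← lintegral_const]
      exact lintegral_mono hf.le
    exact (h1.trans_lt (ENNReal.mul_lt_top ENNReal.coe_lt_top (measure_lt_top ν univ))).ne
  have hη_fin : IsFiniteMeasure η := by
    refine ⟨?_⟩
    have h1 : η univ ≤ ν univ := by rw [gm1_mass h]; exact le_self_add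
    exact h1.trans_lt (measure_lt_top ν univ)
  have ha : a = ε * η univ + ∫⁻ x, min (ε * g x) (g x - C) ∂m := by
    rw [ha_def]; exact gm1_cut_mass h hf
  have hs : (η.withDensity fun x => 1 - f x) univ + ε * η univ = η univ := gm1_sing_mass hε hf.sing
  have hσ : (1 : ℝ≥0∞) = η' univ + ∫⁻ x, g' x ∂m := by
    rw [← gm1_mass h', measure_univ]
  -- measurability
  have mf : Measurable f := hf.meas
  have mg : Measurable g := h.meas
  have mg' : Measurable g' := h'.meas
  have m1 : Measurable fun x => (1 - f x) * g x + a * g' x - C :=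
    (((measurable_const.sub mf).mul mg).add (mg'.const_mul a)).sub measurable_const
  have m2 : Measurable fun x => min (a * g' x) (C - g x) :=
    (mg'.const_mul a).min (measurable_const.sub mg)
  have m3 : Measurable fun x => g x - C := mg.sub measurable_const
  -- integrate the pointwise identity
  have hpt : ∀ᵐ x ∂m, ((1 - f x) * g x + a * g' x - C) + min (a * g' x) (C - g x)
      + min (ε * g x) (g x - C) = (g x - C) + a * g' x := by
    filter_upwards [hf.ac, gm1_dec_lt_top h] with x h1 h2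
    exact gm1_pointwise h2 ((hf.le x).trans hε') h1
  have hint := lintegral_congr_ae hpt
  have m12 : Measurable fun x => ((1 - f x) * g x + a * g' x - C) + min (a * g' x) (C - g x) :=
    m1.add m2
  rw [lintegral_add_left m12, lintegral_add_left m1, lintegral_add_left m3,
    lintegral_const_mul a mg'] at hint
  rw [gm1_F_of_dec (gm1_dec_surgery h h' mf a), gm1_F_of_dec h, Measure.add_apply,
    Measure.smul_apply, smul_eq_mul]
  refine (ENNReal.add_left_inj ha_top).1 ?_
  generalize (∫⁻ x, ((1 - f x) * g x + a * g' x - C) ∂m) = A at *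
  generalize (∫⁻ x, min (a * g' x) (C - g x) ∂m) = I at *
  generalize (∫⁻ x, min (ε * g x) (g x - C) ∂m) = Hh at *
  generalize (∫⁻ x, (g x - C) ∂m) = B at *
  generalize (∫⁻ x, g' x ∂m) = Gp at *
  generalize (η.withDensity fun x => 1 - f x) univ = s1 at *
  calc A + (s1 + a * η' univ) + I + a
      = A + (s1 + a * η' univ) + I + (ε * η univ + Hh) := by rw [← ha]
    _ = (A + I + Hh) + (s1 + ε * η univ) + a * η' univ := by ring
    _ = (B + a * Gp) + η univ + a * η' univ := by rw [hint, hs]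
    _ = B + η univ + a * (η' univ + Gp) := by ring
    _ = B + η univ + a := by rw [← hσ, mul_one]

/-- where `g = C` and `g' > 0` the new density exceeds `C` -/
theorem gm1_new_density {y φ z : ℝ≥0∞} {C ε : ℝ≥0} (hφy : φ * y = min (ε * y) (y - C)) (hy : y = C) (hφ : φ ≤ 1)
    (hz : 0 < z) : (C : ℝ≥0∞) < (1 - φ) * y + z := by
  have hy' : y < ∞ := by rw [hy]; exact ENNReal.coe_lt_top
  rw [gm1_one_sub_mul hy', hφy, hy]
  simp only [tsub_self, zero_le, min_eq_right, tsub_zero]
  exact ENNReal.lt_add_right ENNReal.coe_ne_top hz.ne'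

end

end Claimed.Agent.R210.GM.Exc.Surg
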