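/-
Row 210 (S0432), layer GM (architect helper666), block F = excess mass functional (sub-architect helper988).
File 6: ABSTRACT GM1 (pure measure theory).

Setting: `m` σ-finite, `C > 0`, `𝒜` a set of probability measures, stable under countable convex combinations, on which
`F = gm1_F m C` (`F ν = ∫ (ρ - C)⁺ dm + ν^s(X)`) has a minimiser, and with the SURGERY + SPREAD property:
for `ν ∈ 𝒜`, `f ≤ ε ≤ 1`, `a = ∫ f dν ≠ 0` there is a probability `σ` with `(1 - f) ν + a σ ∈ 𝒜` and `m {σ-density > 0} ≥ a / (ε C)`.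
Conclusion: some `ν ∈ 𝒜` satisfies `ν ≤ C m`.

Proof (Rajala).  Take a minimiser `ν = η + ρ m` with maximal volume `V = m {ρ > C}` (`Comb.gm1_exists_maxV`).  Suppose `F ν ≠ 0`.
Choose `ε` with `ε C V < a_ε := ε η(X) + ∫ min (ε ρ) (ρ - C)` (`Cut.gm1_exists_eps`) and the weight `f` (`Cut.gm1_exists_isCut`), `∫ f dν = a_ε`.
Surgery gives `ν' ∈ 𝒜` with `F ν' + ∫ min (a σ) (C - ρ) = F ν` (`Surg.gm1_F_surgery`).  By minimality the integral vanishes and `ν'` is a minimiser.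
So a.e. on `{σ > 0}`: `ρ ≥ C`, and where `ρ = C` the density of `ν'` is `C + a σ > C`.  Hence `{σ > 0} ⊆ {ρ > C} ∪ {ρ' > C}` a.e., and by
`Comb.gm1_comb_two` some minimiser has volume `≥ m {σ > 0} ≥ a / (ε C) > V`: contradiction.
-/
import Claimed.Agent.R210.GM.Exc.Comb
import Claimed.Agent.R210.GM.Exc.Surg

set_option autoImplicit false

open Set Filter MeasureTheory
open scoped ENNReal NNReal Topology

namespace Claimed.Agent.R210.GM.Exc.Abs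

open Claimed.Agent.R210.GM.Exc.Dec Claimed.Agent.R210.GM.Exc.Comb Claimed.Agent.R210.GM.Exc.Cut
  Claimed.Agent.R210.GM.Exc.Surg

variable {X : Type*} [MeasurableSpace X] {m : Measure X} {C : ℝ≥0} {𝒜 : Set (Measure X)}

theorem gm1_abstract [SigmaFinite m] (hC : 0 < C) (hprob : ∀ ν ∈ 𝒜, IsProbabilityMeasure ν)
    (hsum : ∀ (νs : ℕ → Measure X) (w : ℕ → ℝ≥0∞), (∀ i, νs i ∈ 𝒜) → ∑' i, w i = 1 →
      Measure.sum (fun i => w i • νs i) ∈ 𝒜)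
    (hmin : ∃ ν, gm1_IsMin m C 𝒜 ν)
    (hsurg : ∀ ν ∈ 𝒜, ∀ (f : X → ℝ≥0∞) (ε : ℝ≥0), Measurable f → 0 < ε → ε ≤ 1 → (∀ x, f x ≤ ε) →
      ∫⁻ x, f x ∂ν ≠ 0 →
      ∃ σ : Measure X, IsProbabilityMeasure σ ∧
        (ν.withDensity (fun x => 1 - f x) + (∫⁻ x, f x ∂ν) • σ) ∈ 𝒜 ∧
        (∫⁻ x, f x ∂ν) / (ε * C) ≤ m {x | 0 < σ.rnDeriv m x}) :
    ∃ ν ∈ 𝒜, ν ≤ (C : ℝ≥0∞) • m := by
  obtain ⟨ν, hν, hmax⟩ := gm1_exists_maxV hprob hsum hmin
  have hνp := hprob ν hν.1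
  refine ⟨ν, hν.1, gm1_le_of_F_eq_zero ?_⟩
  by_contra hF
  have hdec : gm1_Dec m ν (ν.singularPart m) (ν.rnDeriv m) := gm1_dec_self
  obtain ⟨ε, hε0, hε1, hlt⟩ := gm1_exists_eps hdec hC hF
  obtain ⟨f, hf⟩ := gm1_exists_isCut hdec C ε
  have hmass := gm1_cut_mass hdec hf
  rw [← hmass] at hlt
  have ha0 : ∫⁻ x, f x ∂ν ≠ 0 := (lt_of_le_of_lt zero_le hlt).ne'
  obtain ⟨σ, hσp, hσA, hσv⟩ := hsurg ν hν.1 f ε hf.meas hε0 hε1 hf.le ha0
  have hdec' : gm1_Dec m σ (σ.singularPart m) (σ.rnDeriv m) := gm1_dec_self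
  have hFs := gm1_F_surgery hdec hdec' hε1 hf
  have h1 := hν.2 _ hσA
  have hFfin : gm1_F m C ν ≠ ∞ := ne_top_of_le_ne_top (measure_ne_top ν univ) gm1_F_le_mass
  have hle : gm1_F m C (ν.withDensity (fun x => 1 - f x) + (∫⁻ x, f x ∂ν) • σ) ≤ gm1_F m C ν := by
    rw [← hFs]; exact le_self_add
  have heq : gm1_F m C (ν.withDensity (fun x => 1 - f x) + (∫⁻ x, f x ∂ν) • σ) = gm1_F m C ν :=
    le_antisymm hle h1
  have hzero : ∫⁻ x, min ((∫⁻ x, f x ∂ν) * σ.rnDeriv m x) (C - ν.rnDeriv m x) ∂m = 0 := by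
    rw [heq] at hFs
    exact (ENNReal.add_right_inj hFfin).1 (hFs.trans (add_zero _).symm)
  have hν'min : gm1_IsMin m C 𝒜 (ν.withDensity (fun x => 1 - f x) + (∫⁻ x, f x ∂ν) • σ) :=
    ⟨hσA, fun μ hμ => by rw [heq]; exact hν.2 μ hμ⟩
  obtain ⟨ν'', hν'', hV⟩ := gm1_comb_two hprob hsum hν hν'min
  have hsub : m {x | 0 < σ.rnDeriv m x} ≤ m ({x | (C : ℝ≥0∞) < ν.rnDeriv m x} ∪
      {x | (C : ℝ≥0∞) < (ν.withDensity (fun x => 1 - f x) + (∫⁻ x, f x ∂ν) • σ).rnDeriv m x}) := by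
    apply measure_mono_ae
    have hrn' := gm1_dec_rn (gm1_dec_surgery hdec hdec' hf.meas (∫⁻ x, f x ∂ν))
    have hmeas : Measurable fun x => min ((∫⁻ x, f x ∂ν) * σ.rnDeriv m x) ((C : ℝ≥0∞) - ν.rnDeriv m x) :=
      ((Measure.measurable_rnDeriv σ m).const_mul _).min
        (measurable_const.sub (Measure.measurable_rnDeriv ν m))
    have hz := (lintegral_eq_zero_iff hmeas).1 hzero
    filter_upwards [hrn', hz, hf.ac] with x hx1 hx2 hx3 hx4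
    have hx4' : 0 < σ.rnDeriv m x := hx4
    have hpos : 0 < (∫⁻ x, f x ∂ν) * σ.rnDeriv m x := ENNReal.mul_pos ha0 hx4'.ne'
    have hCle : (C : ℝ≥0∞) ≤ ν.rnDeriv m x := by
      have : min ((∫⁻ x, f x ∂ν) * σ.rnDeriv m x) ((C : ℝ≥0∞) - ν.rnDeriv m x) = 0 := hx2
      rcases min_eq_iff.1 this with ⟨h, -⟩ | ⟨h, -⟩
      · exact absurd h hpos.ne'
      · exact tsub_eq_zero_iff_le.1 h
    rcases hCle.lt_or_eq with h | h
    · exact Or.inl h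
    · right
      show (C : ℝ≥0∞) < _
      rw [← hx1]
      exact gm1_new_density hx3 h.symm ((hf.le x).trans (by exact_mod_cast hε1)) hpos
  have hεC : (ε : ℝ≥0∞) * C ≠ 0 := by
    simp only [ne_eq, mul_eq_zero, ENNReal.coe_eq_zero, not_or]
    exact ⟨hε0.ne', hC.ne'⟩
  have hlt' : m {x | (C : ℝ≥0∞) < ν.rnDeriv m x} < (∫⁻ x, f x ∂ν) / (ε * C) := by
    rw [ENNReal.lt_div_iff_mul_lt (Or.inl hεC) (Or.inl (ENNReal.mul_ne_top ENNReal.coe_ne_top ENNReal.coe_ne_top)),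
      mul_comm]
    exact hlt
  have := hmax ν'' hν''
  exact absurd (((hlt'.trans_le hσv).trans_le hsub).trans_le hV) (not_lt.2 this)

end Claimed.Agent.R210.GM.Exc.Abs
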